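import Vale.Agent.P287Z.O.L.LG

/-!
# `F(E)` is bounded (P287 port of P294-L, block B7b)
-/

open CategoryTheory Limits MvPolynomial Pretriangulated

namespace Vale.Agent.P287Z.O.H962

open V L

variable (W : MvPolynomial (Fin 6) ℂ) [(grA W).ContainsZero] [(grA W).IsClosedUnderKernels]
    [(grA W).IsClosedUnderCokernels] [(grA W).IsClosedUnderFiniteProducts]
    [(tors W).IsSerreClass] [FrOK W]

theorem QPi_ge (K : CochainComplex (GA W) ℤ) (n : ℤ) (hK : K.IsStrictlyGE n) :
    (DerivedCategory.TStructure.t (C := Coh W)).IsGE ((QPi W).obj K) n := by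
  have : CochainComplex.IsStrictlyGE
      (((piA W).mapHomologicalComplex (ComplexShape.up ℤ)).obj K) n := by
    rw [CochainComplex.isStrictlyGE_iff]
    intro i hi
    exact (piA W).map_isZero (K.isZero_of_isStrictlyGE n i hi)
  exact (inferInstance : (DerivedCategory.Q.obj
    (((piA W).mapHomologicalComplex (ComplexShape.up ℤ)).obj K)).IsGE n)

theorem QPi_le (K : CochainComplex (GA W) ℤ) (n : ℤ) (hK : K.IsStrictlyLE n) :
    (DerivedCategory.TStructure.t (C := Coh W)).IsLE ((QPi W).obj K) n := by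
  have : CochainComplex.IsStrictlyLE
      (((piA W).mapHomologicalComplex (ComplexShape.up ℤ)).obj K) n := by
    rw [CochainComplex.isStrictlyLE_iff]
    intro i hi
    exact (piA W).map_isZero (K.isZero_of_isStrictlyLE n i hi)
  exact (inferInstance : (DerivedCategory.Q.obj
    (((piA W).mapHomologicalComplex (ComplexShape.up ℤ)).obj K)).IsLE n)

/-- **B7b, boundedness** -/
theorem bddSt (hA : AcySt W) : BddSt W := by
  intro n E
  have h1 := QPi_ge W (TL E 0) _ (TL_ge E 0)
  have h2 := QPi_le W (TG E 0) _ (TG_le E 0)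
  refine ⟨⟨_, h1⟩, ⟨bd E 0 + 1, ?_⟩⟩
  have h3 := (DerivedCategory.TStructure.t (C := Coh W)).isLE_shift
    ((QPi W).obj (TG E 0)) (bd E 0) (-1) (bd E 0 + 1) (by ring)
  exact (DerivedCategory.TStructure.t (C := Coh W)).isLE_of_iso (fdIso hA E).symm _

end Vale.Agent.P287Z.O.H962
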