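import Vale.Agent.P287Z.O.L.Props

/-!
# The functor `QPi`: triangles, shifts (P287 port of P294-L, block B7b)
-/

open CategoryTheory Limits MvPolynomial Pretriangulated

namespace Vale.Agent.P287Z.O.H962

open V L

section

variable {𝒜 ℬ : Type 1} [Category.{0} 𝒜] [Abelian 𝒜] [Category.{1} ℬ] [Abelian ℬ]
  [HasDerivedCategory.{1} ℬ] (F : 𝒜 ⥤ ℬ) [F.Additive]

/-- the functor on the homotopy category -/
noncomputable def Hp : HomotopyCategory 𝒜 (ComplexShape.up ℤ) ⥤ DerivedCategory ℬ :=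
  F.mapHomotopyCategory (ComplexShape.up ℤ) ⋙ DerivedCategory.Qh

noncomputable instance : (Hp F).CommShift ℤ :=
  inferInstanceAs ((F.mapHomotopyCategory (ComplexShape.up ℤ) ⋙ DerivedCategory.Qh).CommShift ℤ)

instance : (Hp F).IsTriangulated :=
  inferInstanceAs ((F.mapHomotopyCategory (ComplexShape.up ℤ) ⋙ DerivedCategory.Qh).IsTriangulated)

/-- comparison -/
noncomputable def HpIso : HomotopyCategory.quotient 𝒜 (ComplexShape.up ℤ) ⋙ Hp F ≅
    F.mapHomologicalComplex (ComplexShape.up ℤ) ⋙ DerivedCategory.Q :=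
  (Functor.associator _ _ _).symm ≪≫
    Functor.isoWhiskerRight (F.mapHomotopyCategoryFactors (ComplexShape.up ℤ)) _ ≪≫
    Functor.associator _ _ _ ≪≫
    Functor.isoWhiskerLeft _ (DerivedCategory.quotientCompQhIso ℬ)

theorem cone_tri {K L M : CochainComplex 𝒜 ℤ} (φ : K ⟶ L)
    (e : CochainComplex.mappingCone φ ⟶ M) [IsIso e] :
    ∃ h, Triangle.mk ((F.mapHomologicalComplex (ComplexShape.up ℤ) ⋙ DerivedCategory.Q).map φ)
      ((F.mapHomologicalComplex (ComplexShape.up ℤ) ⋙ DerivedCategory.Q).map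
        (CochainComplex.mappingCone.inr φ ≫ e)) h ∈ distTriang (DerivedCategory ℬ) := by
  have h1 := (Hp F).map_distinguished _ (HomotopyCategory.mappingCone_triangleh_distinguished φ)
  let Ψ := F.mapHomologicalComplex (ComplexShape.up ℤ) ⋙ DerivedCategory.Q
  let η : HomotopyCategory.quotient 𝒜 (ComplexShape.up ℤ) ⋙ Hp F ≅ Ψ := HpIso F
  let T₀ := (Hp F).mapTriangle.obj (CochainComplex.mappingCone.triangleh φ)
  let e₃ : T₀.obj₃ ≅ Ψ.obj M := η.app (CochainComplex.mappingCone φ) ≪≫ Ψ.mapIso (asIso e)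
  refine ⟨e₃.inv ≫ T₀.mor₃ ≫ (η.app K).hom⟦(1 : ℤ)⟧', isomorphic_distinguished _ h1 _ ?_⟩
  refine Iso.symm (Triangle.isoMk T₀ _ (η.app K) (η.app L) e₃ ?_ ?_ ?_)
  · exact η.hom.naturality φ
  · have h2 := η.hom.naturality (CochainComplex.mappingCone.inr φ)
    change (HomotopyCategory.quotient 𝒜 (ComplexShape.up ℤ) ⋙ Hp F).map
      (CochainComplex.mappingCone.inr φ) ≫ η.hom.app (CochainComplex.mappingCone φ) ≫ Ψ.map e =
        η.hom.app L ≫ Ψ.map (CochainComplex.mappingCone.inr φ ≫ e)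
    rw [Ψ.map_comp, ← Category.assoc, h2, Category.assoc]
  · change T₀.mor₃ ≫ (η.app K).hom⟦(1 : ℤ)⟧' = e₃.hom ≫ e₃.inv ≫ T₀.mor₃ ≫ (η.app K).hom⟦(1 : ℤ)⟧'
    rw [Iso.hom_inv_id_assoc]

theorem shift_iso (K L : CochainComplex 𝒜 ℤ) (k : ℤ) (e : K ≅ L⟦k⟧) :
    Nonempty ((F.mapHomologicalComplex (ComplexShape.up ℤ) ⋙ DerivedCategory.Q).obj K ≅
      ((F.mapHomologicalComplex (ComplexShape.up ℤ) ⋙ DerivedCategory.Q).obj L)⟦k⟧) := by
  let Ψ := F.mapHomologicalComplex (ComplexShape.up ℤ) ⋙ DerivedCategory.Q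
  let η : HomotopyCategory.quotient 𝒜 (ComplexShape.up ℤ) ⋙ Hp F ≅ Ψ := HpIso F
  exact ⟨Ψ.mapIso e ≪≫ (η.app _).symm ≪≫
    (Hp F).mapIso (((HomotopyCategory.quotient 𝒜 (ComplexShape.up ℤ)).commShiftIso k).app L) ≪≫
    ((Hp F).commShiftIso k).app _ ≪≫ (shiftFunctor _ k).mapIso (η.app L)⟩

end

end Vale.Agent.P287Z.O.H962
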