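import Vale.Agent.P287Z.O.H962.MatT
import Vale.Agent.P287Z.O.H962.QPi

/-!
# Mapping cones of matrix factorizations (P287 port of P294-L, block B7b)
-/

open CategoryTheory Limits MvPolynomial Pretriangulated

namespace Vale.Agent.P287Z.O.H962

open V L

section Mat

variable {R : Type} [CommRing R] {n m : ℕ}

/-- the block matrix of the mapping cone -/
def mG (d : Matrix (Fin n) (Fin n) R) (f : Matrix (Fin n) (Fin m) R) (e : Matrix (Fin m) (Fin m) R) :
    Matrix (Fin (n + m)) (Fin (n + m)) R :=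
  Matrix.reindex finSumFinEquiv finSumFinEquiv (Matrix.fromBlocks d f 0 e)

def iF (R : Type) [CommRing R] (n m : ℕ) : Matrix (Fin (n + m)) (Fin n) R :=
  Matrix.reindex finSumFinEquiv (Equiv.refl _) (Matrix.fromRows 1 0)

def iE (R : Type) [CommRing R] (n m : ℕ) : Matrix (Fin (n + m)) (Fin m) R :=
  Matrix.reindex finSumFinEquiv (Equiv.refl _) (Matrix.fromRows 0 1)

def pF (R : Type) [CommRing R] (n m : ℕ) : Matrix (Fin n) (Fin (n + m)) R :=
  Matrix.reindex (Equiv.refl _) finSumFinEquiv (Matrix.fromCols 1 0)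

def pE (R : Type) [CommRing R] (n m : ℕ) : Matrix (Fin m) (Fin (n + m)) R :=
  Matrix.reindex (Equiv.refl _) finSumFinEquiv (Matrix.fromCols 0 1)

theorem mG_iF (d : Matrix (Fin n) (Fin n) R) (f : Matrix (Fin n) (Fin m) R)
    (e : Matrix (Fin m) (Fin m) R) : mG d f e * iF R n m = iF R n m * d := by
  unfold mG iF
  simp only [Matrix.reindex_apply]
  rw [Matrix.submatrix_mul_equiv, Matrix.fromBlocks_mul_fromRows]
  ext i j
  refine Fin.addCases (fun i => ?_) (fun i => ?_) i <;>
    simp [Matrix.mul_apply, Matrix.one_apply]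

theorem mG_iE (d : Matrix (Fin n) (Fin n) R) (f : Matrix (Fin n) (Fin m) R)
    (e : Matrix (Fin m) (Fin m) R) : mG d f e * iE R n m = iF R n m * f + iE R n m * e := by
  unfold mG iF iE
  simp only [Matrix.reindex_apply]
  rw [Matrix.submatrix_mul_equiv, Matrix.fromBlocks_mul_fromRows]
  ext i j
  refine Fin.addCases (fun i => ?_) (fun i => ?_) i <;>
    simp [Matrix.mul_apply, Matrix.one_apply]

theorem pF_iF : pF R n m * iF R n m = 1 := by
  ext i j
  simp [pF, iF, Matrix.mul_apply, Matrix.one_apply, Fin.sum_univ_add]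

theorem pF_iE : pF R n m * iE R n m = 0 := by
  ext i j
  simp [pF, iE, Matrix.mul_apply, Matrix.one_apply, Fin.sum_univ_add]

theorem pE_iF : pE R n m * iF R n m = 0 := by
  ext i j
  simp [pE, iF, Matrix.mul_apply, Matrix.one_apply, Fin.sum_univ_add]

theorem pE_iE : pE R n m * iE R n m = 1 := by
  ext i j
  simp [pE, iE, Matrix.mul_apply, Matrix.one_apply, Fin.sum_univ_add]

theorem iF_pF_add : iF R n m * pF R n m + iE R n m * pE R n m = 1 := by
  ext i j
  refine Fin.addCases (fun i => ?_) (fun i => ?_) i <;>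
  refine Fin.addCases (fun j => ?_) (fun j => ?_) j <;>
    simp [pE, iE, pF, iF, Matrix.mul_apply, Matrix.one_apply, Matrix.add_apply]
  · intro h
    have := congrArg Fin.val h
    simp only [Fin.val_castAdd, Fin.val_natAdd] at this
    omega
  · intro h
    have := congrArg Fin.val h
    simp only [Fin.val_castAdd, Fin.val_natAdd] at this
    omega

end Mat

section Hg

variable {W : MvPolynomial (Fin 6) ℂ} {n m : ℕ} {E : GMF W m} {F : GMF W n} {G : GMF W (n + m)}
  (hp : G.p = Fin.append F.p (fun j => E.p j - 3))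

include hp

theorem G_left (i : Fin n) : G.p (Fin.castAdd m i) = F.p i := by
  rw [hp, Fin.append_left]

theorem G_right (i : Fin m) : G.p (Fin.natAdd n i) = E.p i - 3 := by
  rw [hp, Fin.append_right]

theorem iF_hg (k : ℤ) : HgT F G k k (iF _ n m) := fun i j => by
  refine Fin.addCases (fun i => ?_) (fun i => ?_) i
  · have h1 : iF (MvPolynomial (Fin 6) ℂ) n m (Fin.castAdd m i) j = if i = j then 1 else 0 := by
      simp [iF, Matrix.one_apply]
    rw [h1, G_left hp]
    split_ifs with h
    · subst h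
      rw [show 3 * k - 3 * k + F.p i - F.p i = 0 by ring]
      exact isWeightedHomogeneous_one _ _
    · exact isWeightedHomogeneous_zero _ _ _
  · have h1 : iF (MvPolynomial (Fin 6) ℂ) n m (Fin.natAdd n i) j = 0 := by
      simp [iF]
    rw [h1]
    exact isWeightedHomogeneous_zero _ _ _

theorem iE_hg {k l : ℤ} (hk : l + 1 = k) : HgT E G k l (iE _ n m) := fun i j => by
  refine Fin.addCases (fun i => ?_) (fun i => ?_) i
  · have h1 : iE (MvPolynomial (Fin 6) ℂ) n m (Fin.castAdd m i) j = 0 := by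
      simp [iE]
    rw [h1]
    exact isWeightedHomogeneous_zero _ _ _
  · have h1 : iE (MvPolynomial (Fin 6) ℂ) n m (Fin.natAdd n i) j = if i = j then 1 else 0 := by
      simp [iE, Matrix.one_apply]
    rw [h1, G_right hp]
    split_ifs with h
    · subst h
      rw [show 3 * l - 3 * k + E.p i - (E.p i - 3) = 0 by rw [← hk]; ring]
      exact isWeightedHomogeneous_one _ _
    · exact isWeightedHomogeneous_zero _ _ _

theorem pF_hg (k : ℤ) : HgT G F k k (pF _ n m) := fun i j => by
  refine Fin.addCases (fun j => ?_) (fun j => ?_) j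
  · have h1 : pF (MvPolynomial (Fin 6) ℂ) n m i (Fin.castAdd m j) = if i = j then 1 else 0 := by
      simp [pF, Matrix.one_apply]
    rw [h1, G_left hp]
    split_ifs with h
    · subst h
      rw [show 3 * k - 3 * k + F.p i - F.p i = 0 by ring]
      exact isWeightedHomogeneous_one _ _
    · exact isWeightedHomogeneous_zero _ _ _
  · have h1 : pF (MvPolynomial (Fin 6) ℂ) n m i (Fin.natAdd n j) = 0 := by
      simp [pF]
    rw [h1]
    exact isWeightedHomogeneous_zero _ _ _

theorem pE_hg {k l : ℤ} (hk : l + 1 = k) : HgT G E l k (pE _ n m) := fun i j => by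
  refine Fin.addCases (fun j => ?_) (fun j => ?_) j
  · have h1 : pE (MvPolynomial (Fin 6) ℂ) n m i (Fin.castAdd m j) = 0 := by
      simp [pE]
    rw [h1]
    exact isWeightedHomogeneous_zero _ _ _
  · have h1 : pE (MvPolynomial (Fin 6) ℂ) n m i (Fin.natAdd n j) = if i = j then 1 else 0 := by
      simp [pE, Matrix.one_apply]
    rw [h1, G_right hp]
    split_ifs with h
    · subst h
      rw [show 3 * k - 3 * l + (E.p i - 3) - E.p i = 0 by rw [← hk]; ring]
      exact isWeightedHomogeneous_one _ _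
    · exact isWeightedHomogeneous_zero _ _ _

end Hg

section

variable {W : MvPolynomial (Fin 6) ℂ} {n m : ℕ} {E : GMF W m} {F : GMF W n} {G : GMF W (n + m)}
  {f : Matrix (Fin n) (Fin m) (MvPolynomial (Fin 6) ℂ)} (hf : Cl E F f)
  (hp : G.p = Fin.append F.p (fun j => E.p j - 3))
  (hd : G.d = Matrix.reindex finSumFinEquiv finSumFinEquiv (Matrix.fromBlocks F.d f 0 (-E.d)))

include hp hd

theorem cl_iF : Cl F G (coneIn n m) := by
  refine ⟨fun i j => ?_, ?_⟩
  · have := iF_hg hp 0 i j
    rwa [show 3 * (0 : ℤ) - 3 * 0 + F.p j - G.p i = F.p j - G.p i by ring] at this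
  · rw [hd]
    exact mG_iF _ _ _

variable [FrOK W] (P : ℤ → Prop) [DecidablePred P] [Cvx P]
  [(grA W).ContainsZero] [(grA W).IsClosedUnderKernels] [(grA W).IsClosedUnderCokernels]
  [(grA W).IsClosedUnderFiniteProducts]

open CochainComplex HomComplex


omit hp hd [(grA W).ContainsZero] [(grA W).IsClosedUnderKernels] [(grA W).IsClosedUnderCokernels]
  [(grA W).IsClosedUnderFiniteProducts] in
/-- the homotopy -/
noncomputable def al (E : GMF W m) (F : GMF W n) (G : GMF W (n + m))
    (hp : G.p = Fin.append F.p (fun j => E.p j - 3)) (P : ℤ → Prop) [DecidablePred P] [Cvx P] :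
    Cochain (T E P) (T G P) (-1) :=
  Cochain.mk fun k l h => mX P (iE _ n m) (iE_hg hp (by omega))

omit hd [(grA W).ContainsZero] [(grA W).IsClosedUnderKernels] [(grA W).IsClosedUnderCokernels]
  [(grA W).IsClosedUnderFiniteProducts] in
theorem al_v (k l : ℤ) (h : k + -1 = l) :
    (al E F G hp P).v k l h = mX P (iE _ n m) (iE_hg hp (by omega)) := rfl

omit [(grA W).ContainsZero] [(grA W).IsClosedUnderKernels] [(grA W).IsClosedUnderCokernels]
  [(grA W).IsClosedUnderFiniteProducts] in
theorem al_δ : δ (-1) 0 (al E F G hp P) = Cochain.ofHom (Tf hf P ≫ Tf (cl_iF hp hd) P) := by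
  refine Cochain.ext₀ _ _ fun k => ?_
  rw [δ_v (-1) 0 (by norm_num) _ k k (by omega) (k - 1) (k + 1) rfl rfl, al_v, al_v,
    Cochain.ofHom_v, T_dX P G (k - 1) k (by ring), T_dX P E k (k + 1) rfl,
    HomologicalComplex.comp_f, Tf_fX, Tf_fX, mX_comp, mX_comp, mX_comp]
  simp only [Int.negOnePow_zero, one_smul]
  have h1 : k - 1 + 1 = k := by ring
  refine (mX_add P ((iE_hg hp (k := k) (l := k - 1) h1).mul (hgT_d G (l := k) h1))
    ((hgT_d E (k := k) (l := k + 1) rfl).mul (iE_hg hp (l := k) rfl))).symm.trans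
    (mX_congr P ?_ _ _)
  rw [hd]
  refine (congrArg (· + _) (mG_iE _ _ _)).trans ?_
  rw [Matrix.mul_neg, neg_add_cancel_right]
  rfl

/-- `T` of the mapping cone -/
noncomputable def coneHom : mappingCone (Tf hf P) ⟶ T G P :=
  mappingCone.desc (Tf hf P) (al E F G hp P) (Tf (cl_iF hp hd) P) (al_δ hf hp hd P)

theorem inr_coneHom : mappingCone.inr (Tf hf P) ≫ coneHom hf hp hd P = Tf (cl_iF hp hd) P :=
  mappingCone.inr_desc _ _ _ _

theorem isIso_coneHom : IsIso (coneHom hf hp hd P) := by
  have : ∀ k, IsIso ((coneHom hf hp hd P).f k) := fun k => by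
    let i : (T G P).X k ⟶ (mappingCone (Tf hf P)).X k :=
      mX P (pE _ n m) (pE_hg hp (k := k + 1) (l := k) rfl) ≫
        (mappingCone.inl (Tf hf P)).v (k + 1) k (by omega) +
      mX P (pF _ n m) (pF_hg hp k) ≫ (mappingCone.inr (Tf hf P)).f k
    have e1 : (mappingCone.inl (Tf hf P)).v (k + 1) k (by omega) ≫ (coneHom hf hp hd P).f k =
      mX P (iE _ n m) (iE_hg hp rfl) := mappingCone.inl_v_desc_f _ _ _ _ _ _ _
    have e2 : (mappingCone.inr (Tf hf P)).f k ≫ (coneHom hf hp hd P).f k =
      mX P (iF _ n m) (iF_hg hp k) := mappingCone.inr_f_desc_f _ _ _ _ _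
    refine ⟨i, ?_, ?_⟩
    · refine mappingCone.ext_from _ (k + 1) k rfl ?_ ?_
      · rw [← Category.assoc, e1, Category.comp_id, Preadditive.comp_add, ← Category.assoc,
          ← Category.assoc, mX_comp, mX_comp, mX_congr P pE_iE _ (hgT_one E (k + 1)),
          mX_congr P pF_iE _ (HgT.zero E F (k + 1) k), mX_one, mX_zero, Category.id_comp,
          zero_comp, add_zero]
      · rw [← Category.assoc, e2, Category.comp_id, Preadditive.comp_add, ← Category.assoc,
          ← Category.assoc, mX_comp, mX_comp, mX_congr P pE_iF _ (HgT.zero F E k (k + 1)),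
          mX_congr P pF_iF _ (hgT_one F k), mX_one, mX_zero, Category.id_comp,
          zero_comp, zero_add]
    · rw [Preadditive.add_comp, Category.assoc, Category.assoc, e1, e2, mX_comp, mX_comp,
        ← mX_add, mX_congr P (show iE _ n m * pE _ n m + iF _ n m * pF _ n m = 1 by
          exact (add_comm _ _).trans iF_pF_add) _ (hgT_one G k), mX_one]
  exact HomologicalComplex.Hom.isIso_of_components _

end

/-- **B7b, cones** -/
theorem coneSt (W : MvPolynomial (Fin 6) ℂ) [(grA W).ContainsZero] [(grA W).IsClosedUnderKernels]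
    [(grA W).IsClosedUnderCokernels] [(grA W).IsClosedUnderFiniteProducts]
    [(tors W).IsSerreClass] [FrOK W] : ConeSt W := by
  intro m n E F f hf G hp hd
  have := isIso_coneHom hf hp hd (· ≤ 2 * 0)
  obtain ⟨h, hh⟩ := cone_tri (piA W) (Tf hf (· ≤ 2 * 0)) (coneHom hf hp hd (· ≤ 2 * 0))
  refine ⟨cl_iF hp hd, h, ?_⟩
  rw [inr_coneHom] at hh
  exact hh

end Vale.Agent.P287Z.O.H962
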