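import Vale.Agent.P287Z.O.L.Defs2

/-!
# Calculus of the maps between the terms of the complexes `T E P`
-/

open CategoryTheory Limits MvPolynomial

namespace Vale.Agent.P287Z.O.H962

open V L

section

variable {ι κ μ : Type} [Fintype ι] [Fintype κ] [Fintype μ]

theorem hg_odd {a : ℤ} {f : MvPolynomial (Fin 6) ℂ} (hf : Hg a f) (ha : Odd a) : f = 0 := by
  ext s
  rw [coeff_zero]
  by_contra h
  have h1 := hf h
  rw [Finsupp.weight_apply, Finsupp.sum] at h1
  have h2 : Even (∑ i ∈ s.support, s i • (2 : ℤ)) :=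
    Finset.even_sum _ fun i _ => by rw [nsmul_eq_mul]; exact even_two.mul_left _
  rw [h1] at h2
  exact (Int.not_even_iff_odd.2 ha) h2

variable (W : MvPolynomial (Fin 6) ℂ)

theorem matO_add {q : ι → ℤ} {q' : κ → ℤ} (f g : Matrix κ ι (MvPolynomial (Fin 6) ℂ))
    (hf : HgM q q' f) (hg : HgM q q' g) (h : HgM q q' (f + g)) :
    matO W (f + g) h = matO W f hf + matO W g hg := by
  ext a x
  obtain ⟨v, rfl⟩ := Submodule.Quotient.mk_surjective _ x
  change Submodule.Quotient.mk _ = Submodule.Quotient.mk (_ + _)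
  congr 1
  exact Subtype.ext (Matrix.add_mulVec f g v.1)

theorem matO_neg {q : ι → ℤ} {q' : κ → ℤ} (f : Matrix κ ι (MvPolynomial (Fin 6) ℂ))
    (hf : HgM q q' f) (h : HgM q q' (-f)) : matO W (-f) h = - matO W f hf := by
  ext a x
  obtain ⟨v, rfl⟩ := Submodule.Quotient.mk_surjective _ x
  change Submodule.Quotient.mk _ = Submodule.Quotient.mk (- _)
  congr 1
  exact Subtype.ext (Matrix.neg_mulVec v.1 f)

theorem matO_smul {q : ι → ℤ} {q' : κ → ℤ} (c : ℂ) (f : Matrix κ ι (MvPolynomial (Fin 6) ℂ))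
    (hf : HgM q q' f) (h : HgM q q' (c • f)) : matO W (c • f) h = c • matO W f hf := by
  ext a x
  obtain ⟨v, rfl⟩ := Submodule.Quotient.mk_surjective _ x
  change Submodule.Quotient.mk _ = Submodule.Quotient.mk (c • _)
  congr 1
  exact Subtype.ext (Matrix.smul_mulVec c f v.1)

/-- two matrices with the same action on homogeneous vectors modulo `W` -/
theorem matO_congr {q : ι → ℤ} {q' : κ → ℤ} (f g : Matrix κ ι (MvPolynomial (Fin 6) ℂ))
    (hf : HgM q q' f) (hg : HgM q q' g)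
    (h : ∀ i j, Even (q j) → W ∣ f i j - g i j) : matO W f hf = matO W g hg := by
  ext a x
  obtain ⟨v, rfl⟩ := Submodule.Quotient.mk_surjective _ x
  change Submodule.Quotient.mk (frMat f hf a.deg v) = Submodule.Quotient.mk (frMat g hg a.deg v)
  rw [Submodule.Quotient.eq]
  intro i
  change W ∣ f.mulVec v.1 i - g.mulVec v.1 i
  rw [Matrix.mulVec, Matrix.mulVec, dotProduct, dotProduct, ← Finset.sum_sub_distrib]
  refine Finset.dvd_sum fun j _ => ?_
  rw [← sub_mul]
  rcases Int.even_or_odd (q j) with hj | hj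
  · exact Dvd.dvd.mul_right (h i j hj) _
  · have : v.1 j = 0 := hg_odd (v.2 j) (by
      rcases hj with ⟨t, ht⟩
      exact ⟨a.deg - t - 1, by rw [ht]; ring⟩)
    rw [this, mul_zero]
    exact dvd_zero _

theorem matO_one [DecidableEq ι] {q : ι → ℤ} (h : HgM q q 1) : matO W 1 h = 𝟙 (FrO W q) := by
  ext a x
  obtain ⟨v, rfl⟩ := Submodule.Quotient.mk_surjective _ x
  change Submodule.Quotient.mk _ = Submodule.Quotient.mk _
  congr 1
  exact Subtype.ext (Matrix.one_mulVec v.1)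

omit [Fintype ι] in
theorem hgM_one [DecidableEq ι] (q : ι → ℤ) : HgM q q 1 := fun i j => by
  rw [Matrix.one_apply]
  split_ifs with h
  · subst h
    rw [sub_self]
    exact isWeightedHomogeneous_one _ _
  · exact isWeightedHomogeneous_zero _ _ _

variable [FrOK W]

theorem matA_congr {q : ι → ℤ} {q' : κ → ℤ} (f g : Matrix κ ι (MvPolynomial (Fin 6) ℂ))
    (hf : HgM q q' f) (hg : HgM q q' g)
    (h : ∀ i j, Even (q j) → W ∣ f i j - g i j) : matA W f hf = matA W g hg := by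
  apply ObjectProperty.hom_ext
  exact matO_congr W f g hf hg h

theorem matA_add {q : ι → ℤ} {q' : κ → ℤ} (f g : Matrix κ ι (MvPolynomial (Fin 6) ℂ))
    (hf : HgM q q' f) (hg : HgM q q' g) (h : HgM q q' (f + g)) :
    matA W (f + g) h = matA W f hf + matA W g hg := by
  apply ObjectProperty.hom_ext
  exact matO_add W f g hf hg h

theorem matA_neg {q : ι → ℤ} {q' : κ → ℤ} (f : Matrix κ ι (MvPolynomial (Fin 6) ℂ))
    (hf : HgM q q' f) (h : HgM q q' (-f)) : matA W (-f) h = - matA W f hf := by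
  apply ObjectProperty.hom_ext
  exact matO_neg W f hf h

theorem matA_smul {q : ι → ℤ} {q' : κ → ℤ} (c : ℂ) (f : Matrix κ ι (MvPolynomial (Fin 6) ℂ))
    (hf : HgM q q' f) (h : HgM q q' (c • f)) : matA W (c • f) h = c • matA W f hf := by
  apply ObjectProperty.hom_ext
  exact matO_smul W c f hf h

theorem matA_one [DecidableEq ι] {q : ι → ℤ} (h : HgM q q 1) : matA W 1 h = 𝟙 (FrA W q) := by
  apply ObjectProperty.hom_ext
  exact matO_one W h

end

/-! ## Maps between the terms -/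

section

variable {W : MvPolynomial (Fin 6) ℂ} {n m ν : ℕ}

/-- matrices of degree `3 (l - k)` -/
def HgT (E : GMF W m) (F : GMF W n) (k l : ℤ)
    (f : Matrix (Fin n) (Fin m) (MvPolynomial (Fin 6) ℂ)) : Prop :=
  ∀ i j, Hg (3 * l - 3 * k + E.p j - F.p i) (f i j)

theorem HgT.mul {E : GMF W m} {F : GMF W n} {G : GMF W ν} {k l r : ℤ}
    {f : Matrix (Fin n) (Fin m) (MvPolynomial (Fin 6) ℂ)}
    {g : Matrix (Fin ν) (Fin n) (MvPolynomial (Fin 6) ℂ)} (hf : HgT E F k l f)
    (hg : HgT F G l r g) : HgT E G k r (g * f) := fun i j => by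
  rw [Matrix.mul_apply]
  exact hg_sum fun t => hg_mul (hg i t) (hf t j) (by ring)

theorem HgT.add {E : GMF W m} {F : GMF W n} {k l : ℤ}
    {f g : Matrix (Fin n) (Fin m) (MvPolynomial (Fin 6) ℂ)} (hf : HgT E F k l f)
    (hg : HgT E F k l g) : HgT E F k l (f + g) := fun i j => (hf i j).add (hg i j)

theorem HgT.neg {E : GMF W m} {F : GMF W n} {k l : ℤ}
    {f : Matrix (Fin n) (Fin m) (MvPolynomial (Fin 6) ℂ)} (hf : HgT E F k l f) :
    HgT E F k l (-f) := fun i j =>
  (weightedHomogeneousSubmodule ℂ (fun _ => (2 : ℤ)) _).neg_mem (hf i j)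

theorem HgT.zero (E : GMF W m) (F : GMF W n) (k l : ℤ) :
    HgT E F k l (0 : Matrix (Fin n) (Fin m) (MvPolynomial (Fin 6) ℂ)) :=
  fun _ _ => isWeightedHomogeneous_zero _ _ _

theorem hgT_d (E : GMF W n) {k l : ℤ} (h : k + 1 = l) : HgT E E k l E.d := fun i j => by
  have := E.deg i j
  rwa [show 3 * l - 3 * k + E.p j - E.p i = 3 + E.p j - E.p i by rw [← h]; ring]

theorem hgT_cl {E : GMF W m} {F : GMF W n} {f : Matrix (Fin n) (Fin m) (MvPolynomial (Fin 6) ℂ)}
    (hf : Cl E F f) (k : ℤ) : HgT E F k k f := fun i j => by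
  have := hf.1 i j
  rwa [show 3 * k - 3 * k + E.p j - F.p i = E.p j - F.p i by ring]

theorem hgT_one (E : GMF W n) (k : ℤ) : HgT E E k k 1 := fun i j => by
  rw [Matrix.one_apply]
  split_ifs with h
  · subst h
    rw [show 3 * k - 3 * k + E.p i - E.p i = 0 by ring]
    exact isWeightedHomogeneous_one _ _
  · exact isWeightedHomogeneous_zero _ _ _

variable (P : ℤ → Prop) [DecidablePred P]

theorem HgT.mask {E : GMF W m} {F : GMF W n} {k l : ℤ}
    {f : Matrix (Fin n) (Fin m) (MvPolynomial (Fin 6) ℂ)} (hf : HgT E F k l f) :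
    HgM (qsel E P k) (qsel F P l)
      (mask (fun i => P (F.p i - 3 * l)) (fun j => P (E.p j - 3 * k)) f) :=
  hgM_mask E F P k l (3 * l - 3 * k) f hf rfl

variable [FrOK W]

/-- the map between terms given by a matrix of degree `3 (l - k)` -/
noncomputable def mT {E : GMF W m} {F : GMF W n} {k l : ℤ}
    (f : Matrix (Fin n) (Fin m) (MvPolynomial (Fin 6) ℂ)) (hf : HgT E F k l f) :
    TX E P k ⟶ TX F P l := matA W _ (hf.mask P)

theorem mT_comp [Cvx P] {E : GMF W m} {F : GMF W n} {G : GMF W ν} {k l r : ℤ}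
    {f : Matrix (Fin n) (Fin m) (MvPolynomial (Fin 6) ℂ)}
    {g : Matrix (Fin ν) (Fin n) (MvPolynomial (Fin 6) ℂ)} (hf : HgT E F k l f)
    (hg : HgT F G l r g) : mT P f hf ≫ mT P g hg = mT P (g * f) (hf.mul hg) := by
  unfold mT
  refine (matA_comp W _ _ _ _).trans ?_
  congr 1
  exact mask_mul E F G P k l r f g hf hg

theorem mT_congr {E : GMF W m} {F : GMF W n} {k l : ℤ}
    {f g : Matrix (Fin n) (Fin m) (MvPolynomial (Fin 6) ℂ)} (h : f = g) (hf : HgT E F k l f)
    (hg : HgT E F k l g) : mT P f hf = mT P g hg := by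
  subst h
  rfl

theorem mT_mod {E : GMF W m} {F : GMF W n} {k l : ℤ}
    {f g : Matrix (Fin n) (Fin m) (MvPolynomial (Fin 6) ℂ)} (h : ∀ i j, W ∣ f i j - g i j)
    (hf : HgT E F k l f) (hg : HgT E F k l g) : mT P f hf = mT P g hg := by
  unfold mT
  refine matA_congr W _ _ _ _ fun i j _ => ?_
  unfold L.mask
  split_ifs
  · exact h i j
  · rw [sub_zero]
    exact dvd_zero _

theorem mT_add {E : GMF W m} {F : GMF W n} {k l : ℤ}
    {f g : Matrix (Fin n) (Fin m) (MvPolynomial (Fin 6) ℂ)} (hf : HgT E F k l f)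
    (hg : HgT E F k l g) : mT P (f + g) (hf.add hg) = mT P f hf + mT P g hg := by
  unfold mT
  refine Eq.trans ?_ (matA_add W _ _ (hf.mask P) (hg.mask P)
    (fun i j => ((hf.mask P) i j).add ((hg.mask P) i j)))
  congr 1
  ext1 i j
  rw [Matrix.add_apply]
  unfold L.mask
  split_ifs
  · rfl
  · rw [add_zero]

theorem mT_neg {E : GMF W m} {F : GMF W n} {k l : ℤ}
    {f : Matrix (Fin n) (Fin m) (MvPolynomial (Fin 6) ℂ)} (hf : HgT E F k l f) :
    mT P (-f) hf.neg = - mT P f hf := by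
  unfold mT
  refine Eq.trans ?_ (matA_neg W _ (hf.mask P) (fun i j =>
    (weightedHomogeneousSubmodule ℂ (fun _ => (2 : ℤ)) _).neg_mem ((hf.mask P) i j)))
  congr 1
  ext1 i j
  rw [Matrix.neg_apply]
  unfold L.mask
  split_ifs
  · rfl
  · rw [neg_zero]

theorem mT_zero (E : GMF W m) (F : GMF W n) (k l : ℤ) : mT P 0 (HgT.zero E F k l) = 0 := by
  unfold mT
  refine matA_eq_zero W _ _ fun i j => ?_
  unfold L.mask
  split_ifs
  · exact dvd_zero _
  · exact dvd_zero _

theorem mT_one (E : GMF W n) (k : ℤ) : mT P 1 (hgT_one E k) = 𝟙 (TX E P k) := by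
  unfold mT
  refine Eq.trans ?_ (matA_one W (hgM_one _))
  refine matA_congr W _ _ _ _ fun i j hj => ?_
  have hj' : P (E.p j - 3 * k) := by
    by_contra h
    unfold qsel at hj
    rw [if_neg h] at hj
    exact absurd hj (by decide)
  unfold L.mask
  split_ifs with h
  · rw [sub_self]; exact dvd_zero _
  · have hij : i ≠ j := by
      rintro rfl
      exact h ⟨hj', hj'⟩
    rw [Matrix.one_apply_ne hij, sub_zero]
    exact dvd_zero _

theorem Td_eq (E : GMF W n) (k l : ℤ) (h : k + 1 = l) : Td E P k l h = mT P E.d (hgT_d E h) := rfl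

theorem T_d' [Cvx P] (E : GMF W n) (k l : ℤ) (h : k + 1 = l) :
    (T E P).d k l = mT P E.d (hgT_d E h) := T_d E P k l h

theorem Tf_f [Cvx P] {E : GMF W m} {F : GMF W n}
    {f : Matrix (Fin n) (Fin m) (MvPolynomial (Fin 6) ℂ)}
    (hf : Cl E F f) (k : ℤ) : (Tf hf P).f k = mT P f (hgT_cl hf k) := rfl

/-! ### The same maps, with types the terms of the complexes -/

variable [Cvx P]

/-- the map between the terms of the complexes given by a matrix of degree `3 (l - k)` -/
noncomputable def mX {E : GMF W m} {F : GMF W n} {k l : ℤ}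
    (f : Matrix (Fin n) (Fin m) (MvPolynomial (Fin 6) ℂ)) (hf : HgT E F k l f) :
    (T E P).X k ⟶ (T F P).X l := mT P f hf

theorem mX_comp {E : GMF W m} {F : GMF W n} {G : GMF W ν} {k l r : ℤ}
    {f : Matrix (Fin n) (Fin m) (MvPolynomial (Fin 6) ℂ)}
    {g : Matrix (Fin ν) (Fin n) (MvPolynomial (Fin 6) ℂ)} (hf : HgT E F k l f)
    (hg : HgT F G l r g) : mX P f hf ≫ mX P g hg = mX P (g * f) (hf.mul hg) := mT_comp P hf hg

theorem mX_congr {E : GMF W m} {F : GMF W n} {k l : ℤ}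
    {f g : Matrix (Fin n) (Fin m) (MvPolynomial (Fin 6) ℂ)} (h : f = g) (hf : HgT E F k l f)
    (hg : HgT E F k l g) : mX P f hf = mX P g hg := mT_congr P h hf hg

theorem mX_mod {E : GMF W m} {F : GMF W n} {k l : ℤ}
    {f g : Matrix (Fin n) (Fin m) (MvPolynomial (Fin 6) ℂ)} (h : ∀ i j, W ∣ f i j - g i j)
    (hf : HgT E F k l f) (hg : HgT E F k l g) : mX P f hf = mX P g hg := mT_mod P h hf hg

theorem mX_add {E : GMF W m} {F : GMF W n} {k l : ℤ}
    {f g : Matrix (Fin n) (Fin m) (MvPolynomial (Fin 6) ℂ)} (hf : HgT E F k l f)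
    (hg : HgT E F k l g) : mX P (f + g) (hf.add hg) = mX P f hf + mX P g hg := mT_add P hf hg

theorem mX_neg {E : GMF W m} {F : GMF W n} {k l : ℤ}
    {f : Matrix (Fin n) (Fin m) (MvPolynomial (Fin 6) ℂ)} (hf : HgT E F k l f) :
    mX P (-f) hf.neg = - mX P f hf := mT_neg P hf

theorem mX_zero (E : GMF W m) (F : GMF W n) (k l : ℤ) : mX P 0 (HgT.zero E F k l) = 0 :=
  mT_zero P E F k l

theorem mX_one (E : GMF W n) (k : ℤ) : mX P 1 (hgT_one E k) = 𝟙 ((T E P).X k) := mT_one P E k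

theorem T_dX (E : GMF W n) (k l : ℤ) (h : k + 1 = l) :
    (T E P).d k l = mX P E.d (hgT_d E h) := T_d E P k l h

theorem Tf_fX {E : GMF W m} {F : GMF W n}
    {f : Matrix (Fin n) (Fin m) (MvPolynomial (Fin 6) ℂ)}
    (hf : Cl E F f) (k : ℤ) : (Tf hf P).f k = mX P f (hgT_cl hf k) := rfl

end

end Vale.Agent.P287Z.O.H962
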