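import Vale.Agent.P287Z.O.L.Tcx
import Vale.Agent.P287Z.O.L.B1b
import Vale.Agent.P287Z.O.L.Props

/-!
# Orlov data on `D^b(Coh X)` from the properties of `FD` (P287 port of P294-L, block B12)
-/

open CategoryTheory Limits MvPolynomial Pretriangulated

namespace Vale.Agent.P287Z.O.H962

open V L

section

variable {W : MvPolynomial (Fin 6) ℂ} [FrOK W] {n m ν : ℕ}

instance : (QPi W).Additive :=
  inferInstanceAs (((piA W).mapHomologicalComplex (ComplexShape.up ℤ) ⋙
    DerivedCategory.Q).Additive)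

instance : (QPi W).Linear ℂ :=
  inferInstanceAs (((piA W).mapHomologicalComplex (ComplexShape.up ℤ) ⋙
    DerivedCategory.Q).Linear ℂ)

theorem Tf_smul {E : GMF W m} {F : GMF W n} (c : ℂ)
    {f : Matrix (Fin n) (Fin m) (MvPolynomial (Fin 6) ℂ)} (hf : Cl E F f)
    (h : Cl E F (c • f)) (P : ℤ → Prop) [DecidablePred P] [Cvx P] :
    Tf h P = c • Tf hf P := by
  ext1 k
  have h1 : HgM (qsel E P k) (qsel F P k)
      (c • mask (fun i => P (F.p i - 3 * k)) (fun j => P (E.p j - 3 * k)) f) :=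
    HgM.smul c (hgM_f hf P k)
  refine Eq.trans ?_ (matA_smul W c (hgM_f hf P k) h1)
  change matA W _ _ = _
  congr 1
  exact mask_smul _ _ _ _

theorem Tf_add {E : GMF W m} {F : GMF W n}
    {f g : Matrix (Fin n) (Fin m) (MvPolynomial (Fin 6) ℂ)} (hf : Cl E F f) (hg : Cl E F g)
    (h : Cl E F (f + g)) (P : ℤ → Prop) [DecidablePred P] [Cvx P] :
    Tf h P = Tf hf P + Tf hg P := TPQ_add hf hg h P P (cpt_self P)

theorem FDmap_add {E : GMF W m} {F : GMF W n}
    {f g : Matrix (Fin n) (Fin m) (MvPolynomial (Fin 6) ℂ)} (hf : Cl E F f) (hg : Cl E F g)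
    (h : Cl E F (f + g)) : FDmap h = FDmap hf + FDmap hg := by
  unfold FDmap
  rw [Tf_add hf hg h]
  exact (QPi W).map_add

theorem FDmap_smul {E : GMF W m} {F : GMF W n} (c : ℂ)
    {f : Matrix (Fin n) (Fin m) (MvPolynomial (Fin 6) ℂ)} (hf : Cl E F f)
    (h : Cl E F (c • f)) : FDmap h = c • FDmap hf := by
  unfold FDmap
  rw [Tf_smul c hf h]
  exact (QPi W).map_smul _ _

theorem FDmap_one (E : GMF W n) (h : Cl E E 1) : FDmap h = 𝟙 (FD E) := by
  unfold FDmap FD
  rw [Tf_one]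
  exact (QPi W).map_id _

theorem FDmap_comp {E : GMF W m} {F : GMF W n} {G : GMF W ν}
    {f : Matrix (Fin n) (Fin m) (MvPolynomial (Fin 6) ℂ)} (hf : Cl E F f)
    {g : Matrix (Fin ν) (Fin n) (MvPolynomial (Fin 6) ℂ)} (hg : Cl F G g)
    (h : Cl E G (g * f)) : FDmap h = FDmap hf ≫ FDmap hg := by
  unfold FDmap
  rw [← Tf_comp hf hg _ h]
  exact (QPi W).map_comp _ _

end

end Vale.Agent.P287Z.O.H962
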