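import Vale.Agent.P287Z.O.H962.MatT
import Vale.Agent.P287Z.O.H962.QPi

/-!
# Shifts (P287 port of P294-L, block B7b)
-/

open CategoryTheory Limits MvPolynomial Pretriangulated

namespace Vale.Agent.P287Z.O.H962

open V L

section

variable {W : MvPolynomial (Fin 6) ℂ} {n : ℕ} {E E' : GMF W n} {k : ℤ}
  (hp : ∀ i, E'.p i = E.p i - 3 * k)

/-- the identity matrix -/
theorem one_hg (P : ℤ → Prop) [DecidablePred P] (hp : ∀ i, E'.p i = E.p i - 3 * k) (l r : ℤ)
    (h : l + k = r) : qsel E' P l = qsel E P r := by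
  funext i
  unfold qsel
  rw [hp, show E.p i - 3 * k - 3 * l = E.p i - 3 * r by rw [← h]; ring]

variable [FrOK W]

theorem hgM_one_of_eq {ι : Type} [Fintype ι] [DecidableEq ι] {q q' : ι → ℤ} (h : q = q') :
    HgM q q' (1 : Matrix ι ι (MvPolynomial (Fin 6) ℂ)) := by
  subst h
  exact hgM_one q

/-- change of the charges -/
noncomputable def idA {ι : Type} [Fintype ι] [DecidableEq ι] {q q' : ι → ℤ} (h : q = q') :
    FrA W q ≅ FrA W q' where
  hom := matA W 1 (hgM_one_of_eq h)
  inv := matA W 1 (hgM_one_of_eq h.symm)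
  hom_inv_id := by
    subst h
    rw [matA_one, Category.comp_id]
  inv_hom_id := by
    subst h
    rw [matA_one, Category.comp_id]

theorem idA_hom {ι : Type} [Fintype ι] [DecidableEq ι] (q : ι → ℤ) :
    (idA (W := W) (rfl : q = q)).hom = 𝟙 _ := matA_one W _

theorem matA_idA {ι κ : Type} [Fintype ι] [Fintype κ] [DecidableEq ι] [DecidableEq κ]
    {q q' : ι → ℤ} {r r' : κ → ℤ} (h : q = q') (h' : r = r')
    (f : Matrix κ ι (MvPolynomial (Fin 6) ℂ)) (hf : HgM q r f) (hf' : HgM q' r' f) :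
    (idA (W := W) h).hom ≫ matA W f hf' = matA W f hf ≫ (idA h').hom := by
  subst h h'
  rw [idA_hom, idA_hom, Category.id_comp, Category.comp_id]

/-- the signed identity between `T E'` and the shift of `T E` -/
theorem T_shift (P : ℤ → Prop) [DecidablePred P] [Cvx P] (hp : ∀ i, E'.p i = E.p i - 3 * k)
    (hd : E'.d = (k.negOnePow : ℤ) • E.d) : Nonempty (T E' P ≅ (T E P)⟦k⟧) := by
  refine ⟨HomologicalComplex.Hom.isoOfComponents
    (fun l => (idA (one_hg P hp l (l + k) rfl) : FrA W (qsel E' P l) ≅ FrA W (qsel E P (l + k))))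
    fun l r h => ?_⟩
  have h1 : l + 1 = r := h
  have h2 : l + k + 1 = r + k := by rw [← h1]; ring
  rw [CochainComplex.shiftFunctor_obj_d', T_d _ _ _ _ h1, T_d _ _ _ _ h2]
  have h3 : HgM (qsel E P (l + k)) (qsel E P (r + k))
      (mask (fun i => P (E'.p i - 3 * r)) (fun j => P (E'.p j - 3 * l)) E'.d) := by
    rw [← one_hg P hp l (l + k) rfl, ← one_hg P hp r (r + k) rfl]
    exact hgM_d E' P l r h1
  refine Eq.trans ?_ (matA_idA (one_hg P hp l (l + k) rfl) (one_hg P hp r (r + k) rfl) _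
    (hgM_d E' P l r h1) h3)
  congr 1
  have h4 : mask (fun i => P (E'.p i - 3 * r)) (fun j => P (E'.p j - 3 * l)) E'.d =
      (k.negOnePow : ℤ) • mask (fun i => P (E.p i - 3 * (r + k)))
        (fun j => P (E.p j - 3 * (l + k))) E.d := by
    ext1 i j
    rw [Matrix.smul_apply]
    change (if P (E'.p i - 3 * r) ∧ P (E'.p j - 3 * l) then E'.d i j else 0) =
      (k.negOnePow : ℤ) •
        (if P (E.p i - 3 * (r + k)) ∧ P (E.p j - 3 * (l + k)) then E.d i j else 0)
    rw [hp, hp, hd, show E.p i - 3 * k - 3 * r = E.p i - 3 * (r + k) by ring,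
      show E.p j - 3 * k - 3 * l = E.p j - 3 * (l + k) by ring, Matrix.smul_apply]
    split_ifs
    · rfl
    · rw [smul_zero]
  rcases Int.even_or_odd k with hk | hk
  · rw [Int.negOnePow_even k hk]
    refine Eq.trans (one_smul ℤˣ _) (matA_congr W _ _ _ _ fun i j _ => ?_)
    rw [h4, Int.negOnePow_even k hk]
    simp
  · rw [Int.negOnePow_odd k hk]
    refine Eq.trans (Units.neg_smul _ _) (Eq.trans (congrArg Neg.neg (one_smul ℤˣ _)) ?_)
    refine Eq.trans (matA_neg W _ (hgM_d E P (l + k) (r + k) h2) ?_).symm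
      (matA_congr W _ _ _ _ fun i j _ => ?_)
    · exact fun i j => (weightedHomogeneousSubmodule ℂ (fun _ => (2 : ℤ)) _).neg_mem
        (hgM_d E P (l + k) (r + k) h2 i j)
    · rw [h4, Int.negOnePow_odd k hk]
      simp

end

/-- **B7b, shifts** -/
theorem shiftSt (W : MvPolynomial (Fin 6) ℂ) [(grA W).ContainsZero] [(grA W).IsClosedUnderKernels]
    [(grA W).IsClosedUnderCokernels] [(grA W).IsClosedUnderFiniteProducts]
    [(tors W).IsSerreClass] [FrOK W] : ShiftSt W := by
  intro n E E' k hp hd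
  obtain ⟨e⟩ := T_shift (· ≤ 2 * 0) hp hd
  exact shift_iso (piA W) (TL E' 0) (TL E 0) k e

end Vale.Agent.P287Z.O.H962
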